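import Vale.Agent.P359.Defs
import Vale.Agent.P359.Lim.Defs

/-!
# P359: the interface between the assembly and the rational certificate

A square of charge `3|1` has channels `Ls`, partners `n`, rational weights `r` (the true weights
are `g L = r L * sqrt ((n L)! / L!)`) and an impurity weight `v`.
-/

noncomputable section

namespace P359.Asm

open Finset

/-- Channels without an antisymmetric triple. -/
def Bad (L : ℕ) : Prop := L = 0 ∨ L = 1 ∨ L = 3

instance : DecidablePred Bad := fun L => inferInstanceAs (Decidable (L = 0 ∨ L = 1 ∨ L = 3))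

/-- The data of one square of charge `3|1`. -/
structure Sq where
  Ls : Finset ℕ
  n : ℕ → ℕ
  r : ℕ → ℚ
  v : ℚ

/-- All channels of a square have the same shift; an impurity needs shift zero. -/
def Sq.Legal (s : Sq) : Prop :=
  (∀ L ∈ s.Ls, ∀ L' ∈ s.Ls, s.n L + L' = s.n L' + L) ∧ (s.v ≠ 0 → ∀ L ∈ s.Ls, s.n L = L)

/-- The true weight of a channel. -/
def Sq.g (s : Sq) (L : ℕ) : ℝ :=
  (s.r L : ℝ) * Real.sqrt (((s.n L).factorial : ℝ) / (L.factorial : ℝ))

/-- The data of a certificate. -/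
structure Data where
  sqs : List Sq
  N1 : ℕ
  y : ℕ → ℚ
  TM : ℕ

/-- The cost of the multipliers alone. -/
def Data.kappa (c : Data) : ℚ :=
  ∑ n ∈ range (c.N1 + 1), c.y n + (c.sqs.map fun s => s.v ^ 2).sum

/-- The limit coefficient of `X L`. -/
def Data.zq (c : Data) (L : ℕ) : ℚ :=
  -2 * F2q L 1 + ∑ n ∈ range (c.N1 + 1), c.y n * F2q L n
    - (c.sqs.map fun s => if L ∈ s.Ls then
        s.r L ^ 2 * (((s.n L).factorial : ℚ) / (L.factorial : ℚ)) + 2 * s.v * s.r L else 0).sum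

/-- The coefficient of `ov T a b`. -/
def Data.quad (c : Data) (Q T a b : ℕ) : ℝ :=
  (1 / 2) * (piC Q T a * piC Q T b)
    + (c.sqs.map fun s => if a ∈ s.Ls ∧ b ∈ s.Ls then
        s.g a * s.g b * F3 Q a (s.n a) (T - a) (s.n b) (T - b) else 0).sum

/-- The limit of `quad` without the factor `sqrt (gauge2 a (T-a) * gauge2 b (T-b))`. -/
def Data.quadq (c : Data) (T a b : ℕ) : ℚ :=
  piq T a * piq T b / (4 * (T - 1).factorial : ℕ)
    + (c.sqs.map fun s => if a ∈ s.Ls ∧ b ∈ s.Ls then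
        s.r a * s.r b * (3 / 2 : ℚ) ^ ((a : ℤ) - s.n a) * R3 (s.n a) (T - a) (s.n b) (T - b)
      else 0).sum

/-- `w` covers the quartic form in the weight `T` for all large `Q`. -/
def Data.IsSlack (c : Data) (T : ℕ) (w : ℕ → ℚ) : Prop :=
  (∀ L, 0 ≤ w L) ∧
  ∃ Q0 : ℕ, ∀ Q, Q0 ≤ Q → ∀ (V : Type) [NormedAddCommGroup V] [InnerProductSpace ℂ V]
    (A : CAR Q V) (ψ : V),
    - ∑ L ∈ range (T + 1), (w L : ℝ) * A.ov T L L ψ ≤
      ∑ a ∈ range (T + 1), ∑ b ∈ range (T + 1), c.quad Q T a b * A.ov T a b ψ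

/-- A bound for the squares in the weight `T` in the limit, per unit of `hEn`. -/
def Data.tail (c : Data) (T : ℕ) : ℝ :=
  (c.sqs.map fun s => ∑ a ∈ s.Ls, ∑ b ∈ s.Ls, if a ≤ T ∧ b ≤ T then
      ((|s.r a * s.r b * (3 / 2 : ℚ) ^ ((a : ℤ) - s.n a) *
          R3 (s.n a) (T - a) (s.n b) (T - b)| : ℚ) : ℝ) *
        Real.sqrt (gauge2 a (T - a) * gauge2 b (T - b) : ℚ) *
        (2 * Real.sqrt (((a : ℝ) + 1) * ((T - a : ℕ) + 1) * ((b : ℝ) + 1) * ((T - b : ℕ) + 1)))
    else 0).sum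

end P359.Asm
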