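import Vale.Agent.P359.Asm.QuartPart

/-!
# P359: the gap from a rational certificate
-/

noncomputable section

namespace P359.Asm

open Finset Filter Topology

/-- The certificate gives the bound of `Final.gap_of_car`. -/
theorem gap_of_data (c : Data) (hlegal : ∀ s ∈ c.sqs, s.Legal) (hy : ∀ n, 0 ≤ c.y n)
    (w : ℕ → ℕ → ℚ) (e1 : ℚ) (e3 : ℝ)
    (hslack : ∀ T, 1 ≤ T → T ≤ c.TM → c.IsSlack T (w T))
    (hpair : ∀ M, ∑ L ∈ (range M).filter (fun L => ¬ Bad L),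
      ((L : ℚ) + 1) * (3 / 2) * max 0 (-c.zq L) ≤ e1)
    (htail : ∀ M, ∑ T ∈ Finset.Ioc c.TM M, c.tail T ≤ e3)
    (hK : (c.kappa : ℝ) + e1 + e3 + (∑ T ∈ Finset.Icc 1 c.TM,
        ∑ L ∈ (range (T + 1)).filter (fun L => ¬ Bad L),
          w T L * (2 * ((L : ℚ) + 1) * ((T - L : ℕ) + 1)) : ℚ) < 1) :
    ∃ d : ℝ, 0 < d ∧ ∃ Q0 : ℕ, ∀ Q, Q0 ≤ Q →
      ∀ (V : Type) [NormedAddCommGroup V] [InnerProductSpace ℂ V] (A : CAR Q V) (x : V),
        d * A.hEn x ≤ ‖A.ham x‖ ^ 2 := by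
  set S : ℕ → Finset ℕ := fun T => (range (T + 1)).filter (fun L => ¬ Bad L) with hS
  set W : ℝ := ∑ T ∈ Finset.Icc 1 c.TM, ∑ L ∈ S T, (w T L : ℝ) * cnt T L with hW
  set SL : ℚ := ∑ T ∈ Finset.Icc 1 c.TM,
    ∑ L ∈ S T, w T L * (2 * ((L : ℚ) + 1) * ((T - L : ℕ) + 1)) with hSL
  have hSW : (SL : ℝ) = 2 * W := by
    simp only [hSL, hW, cnt, Rat.cast_sum, Finset.mul_sum]
    refine Finset.sum_congr rfl fun T _ => Finset.sum_congr rfl fun L _ => ?_
    push_cast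
    ring
  set d0 : ℝ := 1 - ((c.kappa : ℝ) + e1 + e3 + SL) with hd0
  have hd : 0 < d0 := sub_pos.2 hK
  have hρ : ∀ᶠ Q in atTop, W * rho2 Q < 2 * W + d0 / 8 :=
    (rho2_tendsto.const_mul W).eventually_lt_const (by linarith)
  have hsl : ∀ᶠ Q in atTop, ∀ T ∈ Finset.Icc 1 c.TM,
      ∀ (V : Type) [NormedAddCommGroup V] [InnerProductSpace ℂ V] (A : CAR Q V) (ψ : V),
        - ∑ L ∈ range (T + 1), (w T L : ℝ) * A.ov T L L ψ ≤
          ∑ a ∈ range (T + 1), ∑ b ∈ range (T + 1), c.quad Q T a b * A.ov T a b ψ := by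
    refine (Finset.eventually_all _).2 fun T hT => ?_
    rw [Finset.mem_Icc] at hT
    obtain ⟨Q0, hQ0⟩ := (hslack T hT.1 hT.2).2
    exact eventually_atTop.2 ⟨Q0, hQ0⟩
  obtain ⟨Q0, hQ0⟩ := eventually_atTop.1 <|
    (c.eventually_fits.and <| (eventually_ge_atTop (c.TM + 5)).and <|
      (c.pair_eventually hlegal e1 hpair (by linarith : (0 : ℝ) < d0 / 8)).and <|
      (c.tail_eventually hlegal e3 htail (by linarith : (0 : ℝ) < d0 / 8)).and <| hρ.and hsl)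
  refine ⟨d0 / 2, by linarith, Q0, fun Q hQ V _ _ A ψ => ?_⟩
  obtain ⟨hfit, hQ5, hp, ht, hr, hs⟩ := hQ0 Q hQ
  have h2 : 2 ≤ Q := by omega
  have h0 := A.hEn_nonneg' ψ
  have key := split A c hlegal hy (by omega) hfit ψ
  have b1 := Data.pair_lower A c h2 hp ψ
  -- the weights with a slack
  have b2 : - (W * rho2 Q) * A.hEn ψ ≤ ∑ T ∈ Finset.Icc 1 c.TM,
      ∑ a ∈ range (T + 1), ∑ b ∈ range (T + 1), c.quad Q T a b * A.ov T a b ψ := by
    rw [hW, Finset.sum_mul, ← Finset.sum_neg_distrib, Finset.sum_mul]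
    refine Finset.sum_le_sum fun T hT => le_trans ?_ (hs T hT V A ψ)
    rw [neg_mul, neg_le_neg_iff]
    have hw := (hslack T (Finset.mem_Icc.1 hT).1 (Finset.mem_Icc.1 hT).2).1
    calc ∑ L ∈ range (T + 1), (w T L : ℝ) * A.ov T L L ψ
        = ∑ L ∈ S T, (w T L : ℝ) * A.ov T L L ψ := by
          refine (Finset.sum_subset (Finset.filter_subset _ _) fun L hL hL' => ?_).symm
          simp only [Finset.mem_filter, hL, true_and, not_not] at hL'
          rw [A.ov_self T L (Nat.le_of_lt_succ (Finset.mem_range.1 hL)),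
            Y_bad A (by omega) hL', mul_zero]
      _ ≤ _ := by
          simp only [Finset.sum_mul]
          refine Finset.sum_le_sum fun L hL => ?_
          have hL' := Nat.le_of_lt_succ (Finset.mem_range.1 (Finset.mem_filter.1 hL).1)
          rw [A.ov_self T L hL', mul_assoc _ (cnt T L), mul_assoc]
          exact mul_le_mul_of_nonneg_left (Y_le' A h2 T L ψ) (Rat.cast_nonneg.2 (hw L))
  -- the large weights
  have b3 : - (e3 + d0 / 8) * A.hEn ψ ≤ ∑ T ∈ Finset.Ioc c.TM (2 * Q - 1),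
      ∑ a ∈ range (T + 1), ∑ b ∈ range (T + 1), c.quad Q T a b * A.ov T a b ψ := by
    refine le_trans ?_ (Finset.sum_le_sum fun T _ => Data.quad_lower A c h2 T ψ)
    rw [← Finset.sum_mul, Finset.sum_neg_distrib]
    exact mul_le_mul_of_nonneg_right
      (neg_le_neg (ht _ fun T hT => (Finset.mem_Ioc.1 hT).1)) h0
  have hu : Finset.Icc 1 (2 * Q - 1) = Finset.Icc 1 c.TM ∪ Finset.Ioc c.TM (2 * Q - 1) := by
    ext T
    simp
    omega
  rw [hu, Finset.sum_union (Finset.disjoint_left.2 fun T h h' => by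
    simp only [Finset.mem_Icc, Finset.mem_Ioc] at h h'; omega)] at key
  have : d0 / 2 * A.hEn ψ ≤
      ((1 - c.kappa) - (e1 + d0 / 8) - W * rho2 Q - (e3 + d0 / 8)) * A.hEn ψ :=
    mul_le_mul_of_nonneg_right (by linarith) h0
  linarith

end P359.Asm
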