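import Mathlib

/-!
# P359: partial sums under a uniform summable bound
-/

namespace P359.Asm

open Filter Topology Finset

/-- Finite sums of `f Q` are eventually below any bound for the partial sums of the limit, up to
`ε`, if a summable function dominates `f Q` far out. -/
theorem eventually_sum_le {f : ℕ → ℕ → ℝ} {g b : ℕ → ℝ} {e ε : ℝ} (hε : 0 < ε)
    (hf0 : ∀ Q L, 0 ≤ f Q L) (hb : Summable b)
    (hfb : ∀ᶠ Q in atTop, ∀ L, f Q L ≤ b L)
    (hlim : ∀ L, Tendsto (fun Q => f Q L) atTop (𝓝 (g L)))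
    (he : ∀ M, ∑ L ∈ range M, g L ≤ e) :
    ∀ᶠ Q in atTop, ∀ S : Finset ℕ, ∑ L ∈ S, f Q L ≤ e + ε := by
  obtain ⟨s, hs⟩ := summable_iff_vanishing_norm.1 hb (ε / 2) (half_pos hε)
  obtain ⟨M, hM⟩ : ∃ M, s ⊆ range M := ⟨s.sup id + 1, fun i hi => Finset.mem_range.2
    (Nat.lt_succ_of_le (Finset.le_sup (f := id) hi))⟩
  have hfin : Tendsto (fun Q => ∑ L ∈ range M, f Q L) atTop (𝓝 (∑ L ∈ range M, g L)) :=
    tendsto_finsetSum _ fun L _ => hlim L
  have hev : ∀ᶠ Q in atTop, ∑ L ∈ range M, f Q L < e + ε / 2 :=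
    hfin.eventually_lt_const (by linarith [he M])
  filter_upwards [hev, hfb] with Q h1 h2 S
  calc ∑ L ∈ S, f Q L
      ≤ ∑ L ∈ range M ∪ S \ range M, f Q L :=
        Finset.sum_le_sum_of_subset_of_nonneg (by intro L hL; simp [hL])
          fun L _ _ => hf0 Q L
    _ = (∑ L ∈ range M, f Q L) + ∑ L ∈ S \ range M, f Q L :=
        Finset.sum_union Finset.disjoint_sdiff
    _ ≤ (e + ε / 2) + ∑ L ∈ S \ range M, b L :=
        add_le_add h1.le (Finset.sum_le_sum fun L _ => h2 L)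
    _ ≤ (e + ε / 2) + ε / 2 := by
        have := hs (S \ range M)
          (Finset.disjoint_of_subset_right hM Finset.sdiff_disjoint)
        rw [Real.norm_eq_abs] at this
        linarith [le_abs_self (∑ L ∈ S \ range M, b L)]
    _ = e + ε := by ring

theorem summable_pow_geom (k : ℕ) :
    Summable fun L : ℕ => ((L : ℝ) + 1) ^ k * (4 / 5 : ℝ) ^ L := by
  have h := summable_pow_mul_geometric_of_norm_lt_one k (r := (4 / 5 : ℝ)) (by norm_num)
  have h' := ((summable_nat_add_iff 1).2 h).mul_left (5 / 4 : ℝ)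
  refine h'.congr fun L => ?_
  push_cast
  ring

end P359.Asm
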