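import Vale.Agent.P359.Asm.Split
import Vale.Agent.P359.Asm.Tail
import Vale.Agent.P359.Lim.Bound
import Vale.Agent.P359.Lim.Tendsto

/-!
# P359: the pair part is bounded below by the limit certificate
-/

noncomputable section

namespace P359.Asm

open Finset Filter Topology

theorem Sq.g_sq (s : Sq) (L : ℕ) :
    s.g L ^ 2 = ((s.r L ^ 2 * (((s.n L).factorial : ℚ) / (L.factorial : ℚ)) : ℚ) : ℝ) := by
  rw [Sq.g, mul_pow, Real.sq_sqrt (by positivity)]
  push_cast
  ring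

theorem Sq.v_mul_g (s : Sq) (hs : s.Legal) {L : ℕ} (hL : L ∈ s.Ls) :
    (s.v : ℝ) * s.g L = ((s.v * s.r L : ℚ) : ℝ) := by
  rcases eq_or_ne s.v 0 with h | h
  · simp [h]
  · rw [Sq.g, hs.2 h L hL, div_self (by positivity)]
    simp

theorem Data.zS_eq (c : Data) (hlegal : ∀ s ∈ c.sqs, s.Legal) (L : ℕ) :
    c.zS L = (((c.sqs.map fun s => if L ∈ s.Ls then
      s.r L ^ 2 * (((s.n L).factorial : ℚ) / (L.factorial : ℚ)) + 2 * s.v * s.r L else 0).sum : ℚ) :
        ℝ) := by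
  rw [Data.zS, c.sum_map, Rat.cast_sum]
  refine Finset.sum_congr rfl fun i _ => ?_
  split_ifs with h
  · rw [Rat.cast_add, Sq.g_sq, mul_assoc, Sq.v_mul_g _ (hlegal _ (c.sq_mem i)) h]
    push_cast
    ring
  · simp

theorem Data.zF_sub_tendsto (c : Data) (hlegal : ∀ s ∈ c.sqs, s.Legal) (L : ℕ) :
    Tendsto (fun Q => c.zF Q L - c.zS L) atTop (𝓝 (c.zq L : ℝ)) := by
  have h := (((F2_tendsto L 1).const_mul (-2)).add (tendsto_finsetSum (range (c.N1 + 1))
    fun n _ => (F2_tendsto L n).const_mul (c.y n : ℝ))).sub_const (c.zS L)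
  refine h.trans_eq ?_
  rw [Data.zq, c.zS_eq hlegal]
  push_cast
  rfl

/-- The factor in the bound for `X`. -/
def rho1 (Q : ℕ) : ℝ := 3 / 2 + 1 / (Q : ℝ)

theorem rho1_nonneg (Q : ℕ) : 0 ≤ rho1 Q := by
  unfold rho1; positivity

theorem rho1_le (Q : ℕ) : rho1 Q ≤ 3 := by
  rcases Q.eq_zero_or_pos with rfl | h
  · norm_num [rho1]
  · have : (1 : ℝ) / Q ≤ 1 := by
      rw [div_le_one (by positivity)]
      exact_mod_cast h
    unfold rho1; linarith

theorem rho1_tendsto : Tendsto rho1 atTop (𝓝 (3 / 2 : ℝ)) := by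
  show Tendsto (fun Q : ℕ => (3 / 2 : ℝ) + 1 / (Q : ℝ)) atTop _
  simpa [add_comm] using (tendsto_one_div_atTop_nhds_zero_nat (𝕜 := ℝ)).add_const (3 / 2 : ℝ)

variable {Q : ℕ} {V : Type*} [NormedAddCommGroup V] [InnerProductSpace ℂ V] (A : CAR Q V)

theorem X_nonneg (L : ℕ) (ψ : V) : 0 ≤ A.X L ψ := Finset.sum_nonneg fun _ _ => sq_nonneg _

theorem X_le' (hQ : 2 ≤ Q) (L : ℕ) (ψ : V) : A.X L ψ ≤ ((L : ℝ) + 1) * rho1 Q * A.hEn ψ := by
  have h0 := A.hEn_nonneg' ψ
  refine (A.X_le hQ L ψ).trans (mul_le_mul_of_nonneg_right ?_ h0)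
  rw [mul_div_assoc]
  refine mul_le_mul_of_nonneg_left ?_ (by positivity)
  have hq : (2 : ℝ) ≤ Q := by exact_mod_cast hQ
  rw [rho1, div_add_div _ _ (by norm_num) (by positivity),
    div_le_div_iff₀ (by linarith) (by positivity)]
  nlinarith

/-- One summand of the cost of the pair part. -/
def Data.pairTerm (c : Data) (Q L : ℕ) : ℝ :=
  if Bad L then 0 else max 0 (-(c.zF Q L - c.zS L)) * (((L : ℝ) + 1) * rho1 Q)

theorem Data.pair_eventually (c : Data) (hlegal : ∀ s ∈ c.sqs, s.Legal) (e1 : ℚ)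
    (hpair : ∀ M, ∑ L ∈ (range M).filter (fun L => ¬ Bad L),
      ((L : ℚ) + 1) * (3 / 2) * max 0 (-c.zq L) ≤ e1) {ε : ℝ} (hε : 0 < ε) :
    ∀ᶠ Q in atTop, ∀ S : Finset ℕ, ∑ L ∈ S, c.pairTerm Q L ≤ (e1 : ℝ) + ε := by
  choose C Q0 hC using F2_decay
  set K : ℝ := 2 * C 1 + ∑ n ∈ range (c.N1 + 1), |(c.y n : ℝ)| * C n with hK
  refine eventually_sum_le (g := fun L => if Bad L then 0 else
      max 0 (-(c.zq L : ℝ)) * (((L : ℝ) + 1) * (3 / 2)))
    (b := fun L => 3 * |K| * (((L : ℝ) + 1) ^ 1 * (4 / 5 : ℝ) ^ L)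
      + 3 * ((L : ℝ) + 1) * |c.zS L|) hε ?_ ?_ ?_ ?_ ?_
  · intro Q L
    unfold Data.pairTerm
    have := rho1_nonneg Q
    split_ifs <;> positivity
  · refine ((summable_pow_geom 1).mul_left (3 * |K|)).add ?_
    refine summable_of_ne_finset_zero (s := univ.biUnion fun i => (c.sq i).Ls) fun L hL => ?_
    simp only [Finset.mem_biUnion, Finset.mem_univ, true_and, not_exists] at hL
    simp [Data.zS, hL]
  · have hev : ∀ᶠ Q in atTop, Q0 1 ≤ Q ∧ ∀ n ∈ range (c.N1 + 1), Q0 n ≤ Q :=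
      (eventually_ge_atTop _).and ((Finset.eventually_all _).2 fun n _ => eventually_ge_atTop _)
    filter_upwards [hev] with Q hQ L
    have h1 : |c.zF Q L| ≤ |K| * (4 / 5 : ℝ) ^ L := by
      refine le_trans ?_ (mul_le_mul_of_nonneg_right (le_abs_self K) (by positivity))
      refine (abs_add_le _ _).trans ?_
      rw [hK, add_mul, Finset.sum_mul]
      refine add_le_add ?_ ((Finset.abs_sum_le_sum_abs _ _).trans (Finset.sum_le_sum fun n hn => ?_))
      · rw [abs_mul, abs_neg, abs_two, mul_assoc]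
        exact mul_le_mul_of_nonneg_left (hC 1 Q hQ.1 L) zero_le_two
      · rw [abs_mul, mul_assoc]
        exact mul_le_mul_of_nonneg_left (hC n Q (hQ.2 n hn) L) (abs_nonneg _)
    unfold Data.pairTerm
    split_ifs with hb
    · positivity
    calc max 0 (-(c.zF Q L - c.zS L)) * (((L : ℝ) + 1) * rho1 Q)
        ≤ (|K| * (4 / 5 : ℝ) ^ L + |c.zS L|) * (((L : ℝ) + 1) * 3) := by
          refine mul_le_mul (max_le (by positivity) ?_) ?_
            (mul_nonneg (by positivity) (rho1_nonneg Q)) (by positivity)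
          · linarith [neg_le_abs (c.zF Q L), le_abs_self (c.zS L)]
          · exact mul_le_mul_of_nonneg_left (rho1_le Q) (by positivity)
      _ = _ := by ring
  · intro L
    unfold Data.pairTerm
    split_ifs
    · exact tendsto_const_nhds
    · exact (tendsto_const_nhds.max (c.zF_sub_tendsto hlegal L).neg).mul
        (rho1_tendsto.const_mul _)
  · intro M
    refine le_trans (le_of_eq ?_) ((Rat.cast_le (K := ℝ)).2 (hpair M))
    rw [Rat.cast_sum, Finset.sum_filter]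
    refine Finset.sum_congr rfl fun L _ => ?_
    by_cases hb : Bad L
    · simp [hb]
    · rw [if_neg hb, if_pos hb]
      push_cast
      ring

theorem Data.pair_lower (c : Data) (hQ : 2 ≤ Q) {e : ℝ}
    (he : ∀ S : Finset ℕ, ∑ L ∈ S, c.pairTerm Q L ≤ e) (ψ : V) :
    - e * A.hEn ψ ≤
      ∑ L ∈ (range (Q + 1)).filter (fun L => ¬ Bad L), (c.zF Q L - c.zS L) * A.X L ψ := by
  set S := (range (Q + 1)).filter (fun L => ¬ Bad L)
  calc - e * A.hEn ψ ≤ -(∑ L ∈ S, c.pairTerm Q L) * A.hEn ψ :=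
        mul_le_mul_of_nonneg_right (neg_le_neg (he S)) (A.hEn_nonneg' ψ)
    _ ≤ _ := by
        rw [← Finset.sum_neg_distrib, Finset.sum_mul]
        refine Finset.sum_le_sum fun L hL => ?_
        rw [Data.pairTerm, if_neg (Finset.mem_filter.1 hL).2]
        set z := c.zF Q L - c.zS L
        have h1 := X_le' A hQ L ψ
        have h2 := X_nonneg A L ψ
        have h3 : 0 ≤ max 0 (-z) := le_max_left _ _
        have h4 : -z ≤ max 0 (-z) := le_max_right _ _
        nlinarith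

end P359.Asm
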