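import Vale.Agent.P359.Asm.Defs
import Vale.Agent.P359.Core.Quart
import Vale.Agent.P359.Core.Exch
import Vale.Agent.P359.Lim.Tendsto

/-!
# P359: a positive limit matrix gives a slack
-/

noncomputable section

namespace P359.Asm

open Finset Filter Topology

/-- A quadratic form positive away from zero has a positive lower bound. -/
theorem quad_coercive {ι : Type*} [Fintype ι] (N : ι → ι → ℝ)
    (h : ∀ y : ι → ℝ, (∃ i, y i ≠ 0) → 0 < ∑ i, ∑ j, N i j * y i * y j) :
    ∃ m : ℝ, 0 < m ∧ ∀ y : ι → ℝ, m * ∑ i, y i ^ 2 ≤ ∑ i, ∑ j, N i j * y i * y j := by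
  classical
  rcases isEmpty_or_nonempty ι with hι | hι
  · exact ⟨1, one_pos, fun y => by simp⟩
  set S : Set (ι → ℝ) := {y | ∑ i, y i ^ 2 = 1}
  have hSc : IsCompact S := by
    refine IsCompact.of_isClosed_subset (isCompact_Icc (a := fun _ => (-1 : ℝ)) (b := fun _ => 1))
      (isClosed_eq (by fun_prop) continuous_const) fun y hy => ?_
    have h1 : ∀ i, y i ^ 2 ≤ 1 := fun i =>
      (single_le_sum (fun j _ => sq_nonneg (y j)) (mem_univ i)).trans_eq hy
    exact ⟨fun i => by nlinarith [h1 i, sq_nonneg (y i + 1)],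
      fun i => by nlinarith [h1 i, sq_nonneg (y i - 1)]⟩
  obtain ⟨i0⟩ := hι
  have hne : S.Nonempty := ⟨Pi.single i0 1, by
    show ∑ i, (Pi.single i0 (1 : ℝ) : ι → ℝ) i ^ 2 = 1
    simp [Pi.single_apply]⟩
  obtain ⟨z, hz, hmin⟩ := hSc.exists_isMinOn hne
    (f := fun y : ι → ℝ => ∑ i, ∑ j, N i j * y i * y j) (by fun_prop)
  have hm : 0 < ∑ i, ∑ j, N i j * z i * z j := by
    refine h z ?_
    by_contra hc
    push Not at hc
    simp [S, hc] at hz
  refine ⟨_, hm, fun y => ?_⟩
  rcases eq_or_lt_of_le (sum_nonneg fun i (_ : i ∈ univ) => sq_nonneg (y i)) with h0 | hp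
  · have hy : ∀ i, y i = 0 := fun i => by
      have := (sum_eq_zero_iff_of_nonneg fun j _ => sq_nonneg (y j)).1 h0.symm i (mem_univ i)
      exact pow_eq_zero_iff two_ne_zero |>.1 this
    simp [hy]
  · set r := Real.sqrt (∑ i, y i ^ 2)
    have hr : 0 < r := Real.sqrt_pos.2 hp
    have hr2 : r ^ 2 = ∑ i, y i ^ 2 := Real.sq_sqrt hp.le
    have hmem : (fun i => y i / r) ∈ S := by
      show ∑ i, (y i / r) ^ 2 = 1
      simp only [div_pow]
      rw [← sum_div, hr2, div_self hp.ne']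
    have h2 : ∑ i, ∑ j, N i j * (y i / r) * (y j / r) = (∑ i, ∑ j, N i j * y i * y j) / r ^ 2 := by
      rw [sum_div]
      refine sum_congr rfl fun i _ => ?_
      rw [sum_div]
      refine sum_congr rfl fun j _ => ?_
      field_simp
    have h3 : (∑ i, ∑ j, N i j * z i * z j) ≤ ∑ i, ∑ j, N i j * (y i / r) * (y j / r) := hmin hmem
    rw [h2, le_div_iff₀ (by positivity), hr2] at h3
    exact h3

/-- Positivity of a quadratic form is stable under convergence of the entries. -/
theorem eventually_quad_nonneg {ι : Type*} [Fintype ι] (M : ℕ → ι → ι → ℝ) (N : ι → ι → ℝ)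
    (hlim : ∀ i j, Tendsto (fun Q => M Q i j) atTop (𝓝 (N i j)))
    (h : ∀ y : ι → ℝ, (∃ i, y i ≠ 0) → 0 < ∑ i, ∑ j, N i j * y i * y j) :
    ∀ᶠ Q in atTop, ∀ y : ι → ℝ, 0 ≤ ∑ i, ∑ j, M Q i j * y i * y j := by
  obtain ⟨m, hm, hlow⟩ := quad_coercive N h
  have hd : Tendsto (fun Q => ∑ i, ∑ j, |M Q i j - N i j|) atTop (𝓝 0) := by
    have := tendsto_finsetSum univ fun i (_ : i ∈ univ) =>
      tendsto_finsetSum univ fun j (_ : j ∈ univ) =>
        ((hlim i j).sub (tendsto_const_nhds (x := N i j))).abs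
    simpa using this
  filter_upwards [hd.eventually (ge_mem_nhds hm)] with Q hQ y
  have hsq : ∀ i, y i ^ 2 ≤ ∑ k, y k ^ 2 := fun i =>
    single_le_sum (fun j _ => sq_nonneg (y j)) (mem_univ i)
  have h1 : ∑ i, ∑ j, (N i j * y i * y j - |M Q i j - N i j| * ∑ k, y k ^ 2)
      ≤ ∑ i, ∑ j, M Q i j * y i * y j := by
    refine sum_le_sum fun i _ => sum_le_sum fun j _ => ?_
    have hy : |y i * y j| ≤ ∑ k, y k ^ 2 := by
      rw [abs_mul]
      nlinarith [hsq i, hsq j, sq_abs (y i), sq_abs (y j), sq_nonneg (|y i| - |y j|),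
        abs_nonneg (y i), abs_nonneg (y j)]
    have := neg_abs_le ((M Q i j - N i j) * (y i * y j))
    rw [abs_mul] at this
    nlinarith [mul_le_mul_of_nonneg_left hy (abs_nonneg (M Q i j - N i j))]
  simp only [sum_sub_distrib, ← sum_mul] at h1
  nlinarith [hlow y, mul_le_mul_of_nonneg_right hQ (sum_nonneg fun k (_ : k ∈ univ) => sq_nonneg (y k))]

/-- A real positive semidefinite form is nonnegative on Gram matrices. -/
theorem quad_inner_nonneg {ι : Type*} [Fintype ι] {V : Type*} [NormedAddCommGroup V]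
    [InnerProductSpace ℂ V] (M : ι → ι → ℝ)
    (hM : ∀ y : ι → ℝ, 0 ≤ ∑ i, ∑ j, M i j * y i * y j) (u : ι → V) :
    0 ≤ ∑ i, ∑ j, M i j * (inner ℂ (u i) (u j)).re := by
  have : FiniteDimensional ℂ (Submodule.span ℂ (Set.range u)) :=
    FiniteDimensional.span_of_finite ℂ (Set.finite_range u)
  let b := stdOrthonormalBasis ℂ (Submodule.span ℂ (Set.range u))
  let v : ι → Submodule.span ℂ (Set.range u) := fun i => ⟨u i, Submodule.subset_span ⟨i, rfl⟩⟩
  have key : ∀ i j, (inner ℂ (u i) (u j)).re =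
      ∑ k, ((b.repr (v i) k).re * (b.repr (v j) k).re
        + (b.repr (v i) k).im * (b.repr (v j) k).im) := by
    intro i j
    rw [show inner ℂ (u i) (u j) = inner ℂ (v i) (v j) from rfl,
      ← b.repr.inner_map_map (v i) (v j), PiLp.inner_apply, Complex.re_sum]
    refine sum_congr rfl fun k _ => ?_
    simp [Complex.mul_re, mul_comm]
  simp only [key, mul_sum, mul_add, sum_add_distrib, ← mul_assoc]
  rw [sum_congr rfl fun i (_ : i ∈ univ) => sum_comm, sum_comm (s := univ) (t := univ)]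
  conv_rhs => arg 2; rw [sum_congr rfl fun i (_ : i ∈ univ) => sum_comm, sum_comm]
  exact add_nonneg (sum_nonneg fun k _ => hM _) (sum_nonneg fun k _ => hM _)

/-- The limit of `quad`. -/
theorem quad_tendsto (c : Data) (hlegal : ∀ s ∈ c.sqs, s.Legal) {T a b : ℕ} (hT : 1 ≤ T)
    (ha : a ≤ T) (hb : b ≤ T) :
    Tendsto (fun Q => c.quad Q T a b) atTop
      (𝓝 (Real.sqrt (gauge2 a (T - a) : ℝ) * Real.sqrt (gauge2 b (T - b) : ℝ)
        * (c.quadq T a b : ℝ))) := by
  unfold Data.quad Data.quadq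
  rw [Rat.cast_add, mul_add]
  refine Tendsto.add ?_ ?_
  · refine (show _ = Real.sqrt (gauge2 a (T - a) : ℝ) * Real.sqrt (gauge2 b (T - b) : ℝ)
        * ((piq T a * piq T b / (4 * (T - 1).factorial : ℕ) : ℚ) : ℝ) from ?_) ▸
      ((piC_tendsto hT ha).mul (piC_tendsto hT hb)).const_mul (1 / 2 : ℝ)
    rw [Real.sqrt_div' _ (by positivity), Real.sqrt_div' _ (by positivity)]
    have hp : (0 : ℝ) ≤ ((2 * (T - 1).factorial : ℕ) : ℝ) := Nat.cast_nonneg _
    have hs := Real.mul_self_sqrt hp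
    have hs0 : Real.sqrt ((2 * (T - 1).factorial : ℕ) : ℝ) ≠ 0 :=
      (Real.sqrt_pos.2 (by exact_mod_cast Nat.mul_pos two_pos (Nat.factorial_pos _))).ne'
    have hf : ((T - 1).factorial : ℝ) ≠ 0 := by exact_mod_cast (Nat.factorial_pos _).ne'
    set r := Real.sqrt ((2 * (T - 1).factorial : ℕ) : ℝ)
    push_cast at hs ⊢
    field_simp
    linear_combination (-2 * Real.sqrt (gauge2 a (T - a) : ℝ) * Real.sqrt (gauge2 b (T - b) : ℝ)
      * (piq T a : ℝ) * (piq T b : ℝ)) * hs
  · generalize hl : c.sqs = l at hlegal ⊢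
    clear hl
    induction l with
    | nil => simp
    | cons s l ih =>
      simp only [List.map_cons, List.sum_cons, Rat.cast_add, mul_add]
      refine Tendsto.add ?_ (ih fun t ht => hlegal t (List.mem_cons_of_mem _ ht))
      by_cases hab : a ∈ s.Ls ∧ b ∈ s.Ls
      · simp only [if_pos hab]
        have hj : a + s.n b = b + s.n a := by
          have := (hlegal s List.mem_cons_self).1 a hab.1 b hab.2
          omega
        refine (show _ = Real.sqrt (gauge2 a (T - a) : ℝ) * Real.sqrt (gauge2 b (T - b) : ℝ)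
          * ((s.r a * s.r b * (3 / 2 : ℚ) ^ ((a : ℤ) - s.n a)
              * R3 (s.n a) (T - a) (s.n b) (T - b) : ℚ) : ℝ) from ?_) ▸
          (F3_tendsto (L := a) (n := s.n a) (l := T - a) (L' := b) (n' := s.n b) (l' := T - b)
            hj (by omega)).const_mul (s.g a * s.g b)
        have e : Real.sqrt ((s.n a).factorial / a.factorial : ℝ)
            * Real.sqrt ((s.n b).factorial / b.factorial : ℝ)
            * Real.sqrt ((a.factorial * b.factorial : ℕ)
                / ((s.n a).factorial * (s.n b).factorial : ℕ) : ℝ) = 1 := by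
          rw [← Real.sqrt_mul (by positivity), ← Real.sqrt_mul (by positivity), Real.sqrt_eq_one]
          push_cast
          field_simp
        unfold Sq.g
        push_cast at e ⊢
        linear_combination ((s.r a : ℝ) * (s.r b : ℝ) * Real.sqrt (gauge2 a (T - a) : ℝ)
          * Real.sqrt (gauge2 b (T - b) : ℝ) * (3 / 2 : ℝ) ^ ((a : ℤ) - s.n a)
          * (R3 (s.n a) (T - a) (s.n b) (T - b) : ℝ)) * e
      · simp only [if_neg hab]
        simp

/-- The limit of the exchange matrix. -/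
theorem exch_tendsto {T a b : ℕ} (ha : a ≤ T) (hb : b ≤ T) :
    Tendsto (fun Q => exch Q T a b) atTop
      (𝓝 (Real.sqrt (gauge2 a (T - a) : ℝ) * Real.sqrt (gauge2 b (T - b) : ℝ)
        * (R3 a (T - a) b (T - b) : ℝ))) := by
  have h := F3_tendsto (L := a) (n := a) (l := T - a) (L' := b) (n' := b) (l' := T - b)
    (by omega) (by omega)
  refine (show _ = Real.sqrt (gauge2 a (T - a) : ℝ) * Real.sqrt (gauge2 b (T - b) : ℝ)
    * (R3 a (T - a) b (T - b) : ℝ) from ?_) ▸ h
  rw [sub_self, zpow_zero, mul_one, div_self (by positivity), Real.sqrt_one, mul_one]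

/-- A positive definite rational matrix in the limit gives a slack for all large `Q`. -/
theorem isSlack_of_pos (c : Data) (hlegal : ∀ s ∈ c.sqs, s.Legal) {T : ℕ} (hT : 1 ≤ T) (μ : ℚ)
    (w : ℕ → ℚ) (hw : ∀ L, 0 ≤ w L)
    (h : ∀ x : ℕ → ℝ, (∃ a ∈ range (T + 1), x a ≠ 0) →
      0 < ∑ a ∈ range (T + 1), ∑ b ∈ range (T + 1),
        ((c.quadq T a b + μ * R3 a (T - a) b (T - b)
          + (if a = b then (μ + (if Bad a then μ else 0) + w a) / gauge2 a (T - a) else 0) : ℚ) : ℝ)
          * x a * x b) :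
    c.IsSlack T w := by
  refine ⟨hw, ?_⟩
  let sg : ℕ → ℝ := fun a => Real.sqrt (gauge2 a (T - a) : ℝ)
  have hg : ∀ a, (0 : ℝ) < (gauge2 a (T - a) : ℝ) := fun a => by unfold gauge2; positivity
  let dg : ℕ → ℕ → ℚ := fun a b => if a = b then μ + (if Bad a then μ else 0) + w a else 0
  let M : ℕ → ℕ → ℕ → ℝ := fun Q a b =>
    c.quad Q T a b + (μ : ℝ) * exch Q T a b + (dg a b : ℝ)
  let q : ℕ → ℕ → ℚ := fun a b => c.quadq T a b + μ * R3 a (T - a) b (T - b)
    + (if a = b then (μ + (if Bad a then μ else 0) + w a) / gauge2 a (T - a) else 0)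
  have hlim : ∀ a b : Fin (T + 1),
      Tendsto (fun Q => M Q a b) atTop (𝓝 (sg a * sg b * (q a b : ℝ))) := by
    intro a b
    have h1 := ((quad_tendsto c hlegal hT (Nat.le_of_lt_succ a.2) (Nat.le_of_lt_succ b.2)).add
      ((exch_tendsto (Nat.le_of_lt_succ a.2) (Nat.le_of_lt_succ b.2)).const_mul (μ : ℝ))).add
      (tendsto_const_nhds (x := (dg a b : ℝ)))
    refine (show _ = sg a * sg b * (q a b : ℝ) from ?_) ▸ h1
    simp only [sg, q, dg]
    rcases eq_or_ne (a : ℕ) (b : ℕ) with hab | hab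
    · rw [if_pos hab, if_pos hab, hab]
      push_cast
      have := Real.mul_self_sqrt (hg b).le
      have := (hg b).ne'
      field_simp
      grind
    · rw [if_neg hab, if_neg hab]
      push_cast
      ring
  have hpos : ∀ y : Fin (T + 1) → ℝ, (∃ i, y i ≠ 0) →
      0 < ∑ a : Fin (T + 1), ∑ b : Fin (T + 1), sg a * sg b * (q a b : ℝ) * y a * y b := by
    rintro y ⟨i, hi⟩
    let x : ℕ → ℝ := fun a => if ha : a < T + 1 then sg a * y ⟨a, ha⟩ else 0
    have hx : ∀ a : Fin (T + 1), x a = sg a * y a := fun a => dif_pos a.2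
    have h2 := h x ⟨i, mem_range.2 i.2, by
      rw [hx]; exact mul_ne_zero (Real.sqrt_pos.2 (hg i)).ne' hi⟩
    simp only [Finset.sum_range, hx] at h2
    refine h2.trans_eq (sum_congr rfl fun a _ => sum_congr rfl fun b _ => ?_)
    simp only [q]
    ring
  obtain ⟨Q0, hQ0⟩ := eventually_atTop.1
    (eventually_quad_nonneg (fun Q (a b : Fin (T + 1)) => M Q a b) _ hlim hpos)
  refine ⟨max Q0 5, fun Q hQ V _ _ A ψ => ?_⟩
  have hQ0' := hQ0 Q (le_trans (le_max_left _ _) hQ)
  have hQ5 : 5 ≤ Q := le_trans (le_max_right _ _) hQ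
  have hnn : 0 ≤ ∑ a ∈ range (T + 1), ∑ b ∈ range (T + 1), M Q a b * A.ov T a b ψ := by
    simp only [CAR.ov, mul_sum]
    rw [sum_congr rfl fun a (_ : a ∈ range (T + 1)) => sum_comm, sum_comm]
    refine sum_nonneg fun U _ => ?_
    simp only [Finset.sum_range]
    exact quad_inner_nonneg (fun a b : Fin (T + 1) => M Q a b) hQ0'
      fun a : Fin (T + 1) => A.Phi2 a (T - a) U ψ
  have hex : ∀ a ∈ range (T + 1),
      ∑ b ∈ range (T + 1), exch Q T a b * A.ov T a b ψ = - A.ov T a a ψ := by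
    intro a ha
    simp only [CAR.ov, mul_sum]
    rw [sum_comm, ← sum_neg_distrib]
    refine sum_congr rfl fun U _ => ?_
    have e := congrArg (fun z => (inner ℂ (A.Phi2 a (T - a) U ψ) z).re)
      (A.Phi2_exch (by omega) (Nat.le_of_lt_succ (mem_range.1 ha)) U ψ)
    simp only [inner_neg_right, inner_sum, inner_smul_right, Complex.neg_re, Complex.re_sum,
      Complex.re_ofReal_mul] at e
    linarith
  have hbad : ∀ a, Bad a → A.ov T a a ψ = 0 := fun a ha => by
    simp [CAR.ov, CAR.Phi2, A.Phi1_bad hQ5 ha]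
  have hexp : ∑ a ∈ range (T + 1), ∑ b ∈ range (T + 1), M Q a b * A.ov T a b ψ =
      (∑ a ∈ range (T + 1), ∑ b ∈ range (T + 1), c.quad Q T a b * A.ov T a b ψ) +
        ∑ a ∈ range (T + 1), (w a : ℝ) * A.ov T a a ψ := by
    rw [← sum_add_distrib]
    refine sum_congr rfl fun a ha => ?_
    simp only [M, add_mul, sum_add_distrib, mul_assoc, ← mul_sum, hex a ha]
    have hd : ∑ b ∈ range (T + 1), (dg a b : ℝ) * A.ov T a b ψ =
        ((μ + (if Bad a then μ else 0) + w a : ℚ) : ℝ) * A.ov T a a ψ := by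
      rw [sum_eq_single a (fun b _ hb => by simp [dg, Ne.symm hb]) fun h' => absurd ha h']
      simp [dg]
    rw [hd]
    by_cases hB : Bad a
    · simp [hbad a hB]
    · rw [if_neg hB]
      push_cast
      ring
  linarith

end P359.Asm
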