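import Vale.Agent.P359.Asm.PairPart
import Vale.Agent.P359.Core.Channels

/-!
# P359: the quartic part in large weights
-/

noncomputable section

namespace P359.Asm

open Finset Filter Topology

/-- The factor in the bound for `Y`. -/
def rho2 (Q : ℕ) : ℝ := 2 + 1 / (Q : ℝ)

theorem rho2_nonneg (Q : ℕ) : 0 ≤ rho2 Q := by
  unfold rho2; positivity

theorem rho2_le (Q : ℕ) : rho2 Q ≤ 3 := by
  rcases Q.eq_zero_or_pos with rfl | h
  · norm_num [rho2]
  · have : (1 : ℝ) / Q ≤ 1 := by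
      rw [div_le_one (by positivity)]
      exact_mod_cast h
    unfold rho2; linarith

theorem rho2_tendsto : Tendsto rho2 atTop (𝓝 (2 : ℝ)) := by
  show Tendsto (fun Q : ℕ => (2 : ℝ) + 1 / (Q : ℝ)) atTop _
  simpa [add_comm] using (tendsto_one_div_atTop_nhds_zero_nat (𝕜 := ℝ)).add_const (2 : ℝ)

/-- `(a + 1) (T - a + 1)`. -/
def cnt (T a : ℕ) : ℝ := ((a : ℝ) + 1) * ((T - a : ℕ) + 1)

theorem cnt_nonneg (T a : ℕ) : 0 ≤ cnt T a := by
  unfold cnt; positivity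

variable {Q : ℕ} {V : Type*} [NormedAddCommGroup V] [InnerProductSpace ℂ V] (A : CAR Q V)

theorem Y_nonneg (L l : ℕ) (ψ : V) : 0 ≤ A.Y L l ψ := Finset.sum_nonneg fun _ _ => sq_nonneg _

theorem Y_le' (hQ : 2 ≤ Q) (T a : ℕ) (ψ : V) :
    A.Y a (T - a) ψ ≤ cnt T a * rho2 Q * A.hEn ψ := by
  refine (A.Y_le hQ a (T - a) ψ).trans (mul_le_mul_of_nonneg_right ?_ (A.hEn_nonneg' ψ))
  rw [mul_div_assoc, ← cnt]
  refine mul_le_mul_of_nonneg_left ?_ (cnt_nonneg T a)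
  have hq : (2 : ℝ) ≤ Q := by exact_mod_cast hQ
  rw [rho2, ← sub_nonneg]
  have e : (2 : ℝ) + 1 / Q - (4 * Q - 1) / (2 * Q - 1) = (Q - 1) / (Q * (2 * Q - 1)) := by
    have h1 : (2 * Q - 1 : ℝ) ≠ 0 := by linarith
    field_simp
    ring
  rw [e]
  exact div_nonneg (by linarith) (mul_nonneg (by linarith) (by linarith))

theorem abs_ov_le (hQ : 2 ≤ Q) {T a b : ℕ} (ha : a ≤ T) (hb : b ≤ T) (ψ : V) :
    |A.ov T a b ψ| ≤ Real.sqrt (cnt T a * cnt T b) * rho2 Q * A.hEn ψ := by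
  have hh := mul_nonneg (rho2_nonneg Q) (A.hEn_nonneg' ψ)
  have key : |A.ov T a b ψ| ≤ Real.sqrt (A.Y a (T - a) ψ) * Real.sqrt (A.Y b (T - b) ψ) := by
    rw [CAR.ov, CAR.Y, CAR.Y, Nat.add_sub_cancel' ha, Nat.add_sub_cancel' hb]
    refine (Finset.abs_sum_le_sum_abs _ _).trans
      (le_trans (Finset.sum_le_sum fun U _ => ?_) (Real.sum_mul_le_sqrt_mul_sqrt _ _ _))
    exact (Complex.abs_re_le_norm _).trans (norm_inner_le_norm _ _)
  refine key.trans ((mul_le_mul (Real.sqrt_le_sqrt (Y_le' A hQ T a ψ))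
    (Real.sqrt_le_sqrt (Y_le' A hQ T b ψ)) (Real.sqrt_nonneg _) (Real.sqrt_nonneg _)).trans_eq ?_)
  rw [mul_assoc, mul_assoc, mul_assoc, Real.sqrt_mul (cnt_nonneg T a),
    Real.sqrt_mul (cnt_nonneg T b), Real.sqrt_mul (cnt_nonneg T a) (cnt T b)]
  linear_combination (Real.sqrt (cnt T a) * Real.sqrt (cnt T b)) * Real.mul_self_sqrt hh

/-- The pair-pair part of the quartic form is nonnegative. -/
theorem pi_nonneg (T : ℕ) (ψ : V) :
    0 ≤ ∑ a ∈ range (T + 1), ∑ b ∈ range (T + 1),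
      piC Q T a * piC Q T b * A.ov T a b ψ := by
  have e : ∑ a ∈ range (T + 1), ∑ b ∈ range (T + 1), piC Q T a * piC Q T b * A.ov T a b ψ =
      ∑ U ∈ range (4 * Q - 1 - 2 * T),
        ‖∑ a ∈ range (T + 1), (piC Q T a : ℂ) • A.Phi2 a (T - a) U ψ‖ ^ 2 := by
    simp only [CAR.ov, Finset.mul_sum]
    rw [Finset.sum_congr rfl fun a _ => Finset.sum_comm, Finset.sum_comm]
    refine Finset.sum_congr rfl fun U _ => ?_
    rw [norm_sq_eq_re_inner (𝕜 := ℂ), RCLike.re_to_complex, CAR.re_inner_sum]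
  rw [e]
  positivity

/-- The cost of the squares in the weight `T`. -/
def Data.tailQ (c : Data) (Q T : ℕ) : ℝ :=
  ∑ i, ∑ a ∈ (c.sq i).Ls, ∑ b ∈ (c.sq i).Ls, if a ≤ T ∧ b ≤ T then
    |(c.sq i).g a * (c.sq i).g b * F3 Q a ((c.sq i).n a) (T - a) ((c.sq i).n b) (T - b)| *
      (Real.sqrt (cnt T a * cnt T b) * rho2 Q) else 0

theorem Data.tailQ_nonneg (c : Data) (Q T : ℕ) : 0 ≤ c.tailQ Q T := by
  refine Finset.sum_nonneg fun i _ => Finset.sum_nonneg fun a _ => Finset.sum_nonneg fun b _ => ?_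
  have := rho2_nonneg Q
  split_ifs <;> positivity

theorem Data.quad_lower (c : Data) (hQ : 2 ≤ Q) (T : ℕ) (ψ : V) :
    - c.tailQ Q T * A.hEn ψ ≤
      ∑ a ∈ range (T + 1), ∑ b ∈ range (T + 1), c.quad Q T a b * A.ov T a b ψ := by
  simp only [Data.quad, c.sum_map, add_mul, Finset.sum_add_distrib, Finset.sum_mul, ite_mul,
    zero_mul]
  refine le_add_of_nonneg_of_le ?_ ?_
  · have := pi_nonneg A T ψ
    simp only [mul_assoc (1 / 2 : ℝ), ← Finset.mul_sum]
    linarith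
  rw [Finset.sum_congr rfl fun a _ => Finset.sum_comm, Finset.sum_comm]
  simp only [sum_in_weight, Data.tailQ, neg_mul, Finset.sum_mul, ← Finset.sum_neg_distrib]
  refine Finset.sum_le_sum fun i _ => Finset.sum_le_sum fun a _ => Finset.sum_le_sum fun b _ => ?_
  split_ifs with h
  · refine le_trans (neg_le_neg ?_) (neg_abs_le _)
    rw [abs_mul, mul_assoc (|_|)]
    exact mul_le_mul_of_nonneg_left (abs_ov_le A hQ h.1 h.2 ψ) (abs_nonneg _)
  · simp

theorem Data.tailQ_tendsto (c : Data) (hlegal : ∀ s ∈ c.sqs, s.Legal) (T : ℕ) :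
    Tendsto (fun Q => c.tailQ Q T) atTop (𝓝 (c.tail T)) := by
  simp only [Data.tail, c.sum_map]
  refine tendsto_finsetSum _ fun i _ => tendsto_finsetSum _ fun a ha =>
    tendsto_finsetSum _ fun b hb => ?_
  split_ifs with h
  swap
  · exact tendsto_const_nhds
  set s := c.sq i
  have hsh : s.n a + b = s.n b + a := (hlegal _ (c.sq_mem i)).1 a ha b hb
  have hlim := F3_tendsto (L := a) (n := s.n a) (l := T - a) (L' := b) (n' := s.n b) (l' := T - b)
    (by omega) (by omega)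
  refine (((hlim.const_mul (s.g a * s.g b)).abs).mul
    (rho2_tendsto.const_mul (Real.sqrt (cnt T a * cnt T b)))).trans_eq ?_
  congr 1
  have hg : ∀ L l, (0 : ℝ) ≤ (gauge2 L l : ℝ) := fun L l =>
    Rat.cast_nonneg.2 (by unfold gauge2; positivity)
  have e : Real.sqrt ((s.n a).factorial / a.factorial : ℝ) *
      Real.sqrt ((s.n b).factorial / b.factorial : ℝ) *
      Real.sqrt ((a.factorial * b.factorial : ℕ) / ((s.n a).factorial * (s.n b).factorial : ℕ) : ℝ)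
      = 1 := by
    rw [← Real.sqrt_mul (by positivity), ← Real.sqrt_mul (by positivity), ← Real.sqrt_one]
    congr 1
    push_cast
    field_simp
  have e' : s.g a * s.g b * (Real.sqrt (gauge2 a (T - a) : ℝ) * Real.sqrt (gauge2 b (T - b) : ℝ) *
      Real.sqrt ((a.factorial * b.factorial : ℕ) / ((s.n a).factorial * (s.n b).factorial : ℕ) : ℝ) *
      (3 / 2 : ℝ) ^ ((a : ℤ) - s.n a) * (R3 (s.n a) (T - a) (s.n b) (T - b) : ℝ)) =
      ((s.r a * s.r b * (3 / 2 : ℚ) ^ ((a : ℤ) - s.n a) *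
          R3 (s.n a) (T - a) (s.n b) (T - b) : ℚ) : ℝ) *
        Real.sqrt (gauge2 a (T - a) * gauge2 b (T - b) : ℚ) := by
    rw [Sq.g, Sq.g, Rat.cast_mul (gauge2 a (T - a)), Real.sqrt_mul (hg _ _)]
    push_cast at e ⊢
    linear_combination ((s.r a : ℝ) * s.r b * Real.sqrt (gauge2 a (T - a) : ℝ) *
      Real.sqrt (gauge2 b (T - b) : ℝ) * (3 / 2 : ℝ) ^ ((a : ℤ) - s.n a) *
      (R3 (s.n a) (T - a) (s.n b) (T - b) : ℝ)) * e
  rw [e', abs_mul, abs_of_nonneg (Real.sqrt_nonneg _), Rat.cast_abs]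
  simp only [cnt, mul_assoc, mul_comm (2 : ℝ)]

theorem Data.tail_eventually (c : Data) (hlegal : ∀ s ∈ c.sqs, s.Legal) (e3 : ℝ)
    (htail : ∀ M, ∑ T ∈ Finset.Ioc c.TM M, c.tail T ≤ e3) {ε : ℝ} (hε : 0 < ε) :
    ∀ᶠ Q in atTop, ∀ S : Finset ℕ, (∀ T ∈ S, c.TM < T) → ∑ T ∈ S, c.tailQ Q T ≤ e3 + ε := by
  choose C Q0 hC using F3_decay
  set K : ℝ := ∑ i, ∑ a ∈ (c.sq i).Ls, ∑ b ∈ (c.sq i).Ls,
    |(c.sq i).g a * (c.sq i).g b| * |C a ((c.sq i).n a) ((c.sq i).n b)| * (5 / 4 : ℝ) ^ a *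
      Real.sqrt (((a : ℝ) + 1) * ((b : ℝ) + 1)) * 3 with hK
  have key := eventually_sum_le (f := fun Q T => if c.TM < T then c.tailQ Q T else 0)
    (g := fun T => if c.TM < T then c.tail T else 0)
    (b := fun T => K * (((T : ℝ) + 1) ^ 1 * (4 / 5 : ℝ) ^ T)) (e := e3) hε ?_ ?_ ?_ ?_ ?_
  · filter_upwards [key] with Q hQ S hS
    refine le_trans (le_of_eq ?_) (hQ S)
    exact Finset.sum_congr rfl fun T hT => by rw [if_pos (hS T hT)]
  · intro Q T
    split_ifs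
    exacts [c.tailQ_nonneg Q T, le_rfl]
  · exact (summable_pow_geom 1).mul_left K
  · have hev : ∀ᶠ Q in atTop, ∀ i, ∀ a ∈ (c.sq i).Ls, ∀ b ∈ (c.sq i).Ls,
        Q0 a ((c.sq i).n a) ((c.sq i).n b) ≤ Q :=
      eventually_all.2 fun i => (Finset.eventually_all _).2 fun a _ =>
        (Finset.eventually_all _).2 fun b _ => eventually_ge_atTop _
    filter_upwards [hev] with Q hQ T
    have hK0 : 0 ≤ K := by positivity
    split_ifs
    swap
    · positivity
    rw [Data.tailQ, hK, Finset.sum_mul]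
    refine Finset.sum_le_sum fun i _ => ?_
    rw [Finset.sum_mul]
    refine Finset.sum_le_sum fun a ha => ?_
    rw [Finset.sum_mul]
    refine Finset.sum_le_sum fun b hb => ?_
    split_ifs with h
    swap
    · positivity
    set s := c.sq i
    have hsh : (c.sq i).n a + b = (c.sq i).n b + a := (hlegal _ (c.sq_mem i)).1 a ha b hb
    have h1 : |F3 Q a (s.n a) (T - a) (s.n b) (T - b)| ≤
        |C a (s.n a) (s.n b)| * ((5 / 4 : ℝ) ^ a * (4 / 5 : ℝ) ^ T) := by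
      refine (hC _ _ _ Q (hQ i a ha b hb) (T - a) (T - b) (by omega)).trans ?_
      refine le_of_le_of_eq (mul_le_mul_of_nonneg_right (le_abs_self _) (by positivity)) ?_
      congr 1
      conv_rhs => rw [← Nat.add_sub_cancel' h.1, pow_add, ← mul_assoc, ← mul_pow]
      norm_num
    have h2 : Real.sqrt (cnt T a * cnt T b) ≤
        Real.sqrt (((a : ℝ) + 1) * ((b : ℝ) + 1)) * ((T : ℝ) + 1) := by
      rw [← Real.sqrt_sq (by positivity : (0 : ℝ) ≤ (T : ℝ) + 1), ← Real.sqrt_mul (by positivity)]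
      refine Real.sqrt_le_sqrt ?_
      have ha' : ((T - a : ℕ) : ℝ) ≤ T := Nat.cast_le.2 (Nat.sub_le _ _)
      have hb' : ((T - b : ℕ) : ℝ) ≤ T := Nat.cast_le.2 (Nat.sub_le _ _)
      calc cnt T a * cnt T b
          = ((a : ℝ) + 1) * ((b : ℝ) + 1) * (((T - a : ℕ) + 1 : ℝ) * ((T - b : ℕ) + 1)) := by
            unfold cnt; ring
        _ ≤ ((a : ℝ) + 1) * ((b : ℝ) + 1) * (((T : ℝ) + 1) * ((T : ℝ) + 1)) := by gcongr
        _ = _ := by ring
    calc |s.g a * s.g b * F3 Q a (s.n a) (T - a) (s.n b) (T - b)| *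
          (Real.sqrt (cnt T a * cnt T b) * rho2 Q)
        ≤ |s.g a * s.g b| * (|C a (s.n a) (s.n b)| * ((5 / 4 : ℝ) ^ a * (4 / 5 : ℝ) ^ T)) *
          (Real.sqrt (((a : ℝ) + 1) * ((b : ℝ) + 1)) * ((T : ℝ) + 1) * 3) := by
          rw [abs_mul (s.g a * s.g b)]
          exact mul_le_mul (mul_le_mul_of_nonneg_left h1 (abs_nonneg _))
            (mul_le_mul h2 (rho2_le Q) (rho2_nonneg Q) (by positivity))
            (mul_nonneg (Real.sqrt_nonneg _) (rho2_nonneg Q)) (by positivity)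
      _ = _ := by ring
  · intro T
    split_ifs
    exacts [c.tailQ_tendsto hlegal T, tendsto_const_nhds]
  · intro M
    refine le_trans (le_of_eq ?_) (htail (M - 1))
    rw [← Finset.sum_filter]
    refine Finset.sum_congr ?_ fun T _ => rfl
    ext T
    simp
    omega

end P359.Asm
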