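import Vale.Agent.P359.Asm.Defs
import Vale.Agent.P359.Core.Block
import Vale.Agent.P359.Core.Pair
import Vale.Agent.P359.Core.Quart
import Vale.Agent.P359.Haar

/-!
# P359: the inequality at finite `Q` split into the pair part and the quartic part
-/

noncomputable section

namespace P359.Asm

open Finset

variable {Q : ℕ} {V : Type*} [NormedAddCommGroup V] [InnerProductSpace ℂ V] (A : CAR Q V)

/-- The `i`-th square. -/
def Data.sq (c : Data) (i : Fin c.sqs.length) : Sq := c.sqs[i.1]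

theorem Data.sum_map {β : Type*} [AddCommMonoid β] (c : Data) (f : Sq → β) :
    (c.sqs.map f).sum = ∑ i, f (c.sq i) := by
  rw [← List.ofFn_getElem_eq_map, List.sum_ofFn]
  rfl

theorem Data.sq_mem (c : Data) (i : Fin c.sqs.length) : c.sq i ∈ c.sqs := List.getElem_mem i.2

/-- The indices of all squares fit into the flux `Q`. -/
def Data.Fits (c : Data) (Q : ℕ) : Prop :=
  c.N1 ≤ Q ∧ ∀ i, ∀ L ∈ (c.sq i).Ls,
    L ≤ Q ∧ (c.sq i).n L ≤ Q ∧ 2 * L + (c.sq i).n L + 2 ≤ 2 * Q + 2 * (c.sq i).n L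

theorem Data.eventually_fits (c : Data) : ∀ᶠ Q in Filter.atTop, c.Fits Q := by
  refine (Filter.eventually_ge_atTop c.N1).and (Filter.eventually_all.2 fun i => ?_)
  rw [Finset.eventually_all]
  intro L _
  filter_upwards [Filter.eventually_ge_atTop (L + (c.sq i).n L + 2)] with Q hQ
  omega

/-- The `Q`-dependent part of the coefficient of `X L`. -/
def Data.zF (c : Data) (Q L : ℕ) : ℝ :=
  -2 * F2 Q L 1 + ∑ n ∈ range (c.N1 + 1), (c.y n : ℝ) * F2 Q L n

/-- The part of the coefficient of `X L` from the squares of charge `3|1`. -/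
def Data.zS (c : Data) (L : ℕ) : ℝ :=
  ∑ i, if L ∈ (c.sq i).Ls then (c.sq i).g L ^ 2 + 2 * (c.sq i).v * (c.sq i).g L else 0

/-- Reindexing a double sum over the channels of a square inside the weight `T`. -/
theorem sum_in_weight (S : Finset ℕ) (T : ℕ) (F : ℕ → ℕ → ℝ) :
    ∑ a ∈ range (T + 1), ∑ b ∈ range (T + 1), (if a ∈ S ∧ b ∈ S then F a b else 0) =
      ∑ a ∈ S, ∑ b ∈ S, if a ≤ T ∧ b ≤ T then F a b else 0 := by
  have e : (range (T + 1)).filter (· ∈ S) = S.filter (· ≤ T) := by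
    ext a
    simp [and_comm]
  simp only [ite_and, Finset.sum_ite_irrel, Finset.sum_const_zero]
  simp only [← Finset.sum_filter, e]

/-- Channel `L = 0` of weight zero vanishes. -/
theorem ov_zero (hQ : 5 ≤ Q) (ψ : V) : A.ov 0 0 0 ψ = 0 := by
  simp [CAR.ov, CAR.Phi2, A.Phi1_bad hQ (L := 0) (Or.inl rfl)]

theorem X_bad (hQ : 5 ≤ Q) {L : ℕ} (h : Bad L) (ψ : V) : A.X L ψ = 0 := by
  simp [CAR.X, A.Phi1_bad hQ h]

theorem Y_bad (hQ : 5 ≤ Q) {L : ℕ} (h : Bad L) (l : ℕ) (ψ : V) : A.Y L l ψ = 0 := by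
  simp [CAR.Y, CAR.Phi2, A.Phi1_bad hQ h]

theorem split (c : Data) (hlegal : ∀ s ∈ c.sqs, s.Legal) (hy : ∀ n, 0 ≤ c.y n) (hQ : 5 ≤ Q)
    (hfit : c.Fits Q) (ψ : V) :
    (1 - (c.kappa : ℝ)) * A.hEn ψ
        + ∑ L ∈ (range (Q + 1)).filter (fun L => ¬ Bad L), (c.zF Q L - c.zS L) * A.X L ψ
        + ∑ T ∈ Finset.Icc 1 (2 * Q - 1),
            ∑ a ∈ range (T + 1), ∑ b ∈ range (T + 1), c.quad Q T a b * A.ov T a b ψ
      ≤ ‖A.ham ψ‖ ^ 2 := by
  set J : Finset ℕ := range (Q + 1)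
  set Ts : Finset ℕ := Finset.Icc 1 (2 * Q - 1)
  have h2 : 2 ≤ Q := by omega
  -- the squares of charge `3|1`
  set R : Fin c.sqs.length → ℕ → ℝ := fun i T =>
    ∑ a ∈ range (T + 1), ∑ b ∈ range (T + 1),
      (if a ∈ (c.sq i).Ls ∧ b ∈ (c.sq i).Ls then (c.sq i).g a * (c.sq i).g b *
        F3 Q a ((c.sq i).n a) (T - a) ((c.sq i).n b) (T - b) else 0) * A.ov T a b ψ with hR
  set P : Fin c.sqs.length → ℝ := fun i => ∑ L ∈ J,
    (if L ∈ (c.sq i).Ls then (c.sq i).g L ^ 2 + 2 * (c.sq i).v * (c.sq i).g L else 0) * A.X L ψ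
    with hP
  have hsq : ∀ i, 0 ≤ P i + ((c.sq i).v : ℝ) ^ 2 * A.hEn ψ - ∑ T ∈ Ts, R i T := by
    intro i
    have hl := hlegal _ (c.sq_mem i)
    have key := A.block_nonneg h2 (c.sq i).Ls (c.sq i).n (c.sq i).g (c.sq i).v (hfit.2 i) hl.1
      (fun hv => hl.2 fun h0 => hv (by simp [h0])) ψ
    refine key.trans (le_of_eq ?_)
    congr 1
    · congr 1
      rw [hP, Finset.mul_sum, ← Finset.sum_add_distrib]
      simp only [ite_mul, zero_mul, J, Finset.sum_ite_mem]
      rw [Finset.inter_eq_right.2 fun L hL => Finset.mem_range.2 (by have := hfit.2 i L hL; omega)]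
      exact Finset.sum_congr rfl fun L _ => by ring
    · have hins : range (2 * Q) = insert 0 Ts := by
        ext T
        simp [Ts]
        omega
      have h0 : R i 0 = 0 := by simp [hR, ov_zero A hQ]
      rw [show ∑ T ∈ Ts, R i T = ∑ T ∈ range (2 * Q), R i T by
        rw [hins, Finset.sum_insert (by simp [Ts]), h0, zero_add]]
      simp only [hR, ite_mul, zero_mul, sum_in_weight, Finset.mul_sum, mul_ite, mul_zero]
      conv_rhs => rw [Finset.sum_comm]
      refine Finset.sum_congr rfl fun a _ => ?_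
      conv_rhs => rw [Finset.sum_comm]
      refine Finset.sum_congr rfl fun b _ => Finset.sum_congr rfl fun T _ => ?_
      split_ifs <;> ring
  -- the squares of charge `2|1`
  have hF : 0 ≤ ∑ n ∈ range (c.N1 + 1),
      (c.y n : ℝ) * (A.hEn ψ - ∑ L ∈ J, F2 Q L n * A.X L ψ) :=
    Finset.sum_nonneg fun n hn => mul_nonneg (Rat.cast_nonneg.2 (hy n)) (sub_nonneg.2
      (A.sum_F2_le h2 (by have := hfit.1; rw [Finset.mem_range] at hn; omega) ψ))
  have hS : 0 ≤ ∑ i, (P i + ((c.sq i).v : ℝ) ^ 2 * A.hEn ψ - ∑ T ∈ Ts, R i T) :=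
    Finset.sum_nonneg fun i _ => hsq i
  -- collect the terms
  have eX : ∑ L ∈ J.filter (fun L => ¬ Bad L), (c.zF Q L - c.zS L) * A.X L ψ =
      -2 * (∑ L ∈ J, F2 Q L 1 * A.X L ψ)
        + (∑ n ∈ range (c.N1 + 1), (c.y n : ℝ) * ∑ L ∈ J, F2 Q L n * A.X L ψ) - ∑ i, P i := by
    have e0 : ∑ L ∈ J.filter (fun L => ¬ Bad L), (c.zF Q L - c.zS L) * A.X L ψ =
        ∑ L ∈ J, (c.zF Q L - c.zS L) * A.X L ψ :=
      Finset.sum_subset (Finset.filter_subset _ _) fun L hL hL' => by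
        simp only [Finset.mem_filter, hL, true_and, not_not] at hL'
        rw [X_bad A hQ hL', mul_zero]
    rw [e0]
    simp only [Data.zF, Data.zS, hP, add_mul, sub_mul, Finset.sum_add_distrib,
      Finset.sum_sub_distrib, Finset.sum_mul, Finset.mul_sum, mul_assoc]
    rw [Finset.sum_comm (s := J) (t := range (c.N1 + 1)), Finset.sum_comm (s := J) (t := univ)]
  have eT : ∑ T ∈ Ts, ∑ a ∈ range (T + 1), ∑ b ∈ range (T + 1), c.quad Q T a b * A.ov T a b ψ =
      A.BB ψ + ∑ i, ∑ T ∈ Ts, R i T := by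
    rw [A.BB_eq h2, Finset.sum_comm (s := univ), Finset.mul_sum, ← Finset.sum_add_distrib]
    refine Finset.sum_congr rfl fun T _ => ?_
    simp only [hR, Data.quad, c.sum_map, add_mul, Finset.sum_add_distrib, Finset.sum_mul,
      Finset.mul_sum, mul_assoc]
    congr 1
    rw [Finset.sum_comm (s := univ)]
    exact Finset.sum_congr rfl fun a _ => Finset.sum_comm
  have ek : (c.kappa : ℝ) =
      (∑ n ∈ range (c.N1 + 1), (c.y n : ℝ)) + ∑ i, ((c.sq i).v : ℝ) ^ 2 := by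
    simp only [Data.kappa, c.sum_map]
    push_cast
    rfl
  simp only [Finset.sum_sub_distrib, Finset.sum_add_distrib, ← Finset.sum_mul, mul_sub] at hS hF
  rw [A.norm_ham_sq h2, eX, eT, ek]
  linarith

end P359.Asm
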